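import Vale.Agent.P085.Concrete

namespace Vale.Agent.Results.P085.A_full

open Vale.Agent.P085

theorem result {H : Type*} [NormedAddCommGroup H] [InnerProductSpace ℂ H] [CompleteSpace H]
    [TopologicalSpace.SeparableSpace H] (M : VonNeumannAlgebra H) (hM : IsTypeIIOneFactor M) :
    SinglyGenerated M :=
  singlyGenerated M hM

end Vale.Agent.Results.P085.A_full
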